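import Vale.Agent.Results.P057.RothSixth

/-!
# P057 (Q2 for k = 3) in Mathlib terms

`rothNumberNat N` is Mathlib's Roth number: the largest cardinality of a subset of
`{0, …, N - 1}` without nontrivial 3-term arithmetic progressions.
-/

namespace Vale.Agent.Results.P057.RothNumber

open Filter

/-- the Roth number of Mathlib is bounded as in `FINAL` -/
theorem main_bound : ∃ c : ℝ, 0 < c ∧ ∃ N₀ : ℕ, ∀ N : ℕ, N₀ ≤ N →
    (rothNumberNat N : ℝ) ≤ N * Real.exp (-c * (Real.log N / Real.log (Real.log N)) ^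
      ((1 : ℝ) / 6)) := by
  obtain ⟨c, hc, N₀, h⟩ := Vale.Agent.Results.P057.RothSixth.final_all
  refine ⟨c, hc, N₀, fun N hN => ?_⟩
  obtain ⟨t, ht, hcard, hfree⟩ := rothNumberNat_spec N
  have h1 := h N hN (t.map ⟨fun x => x + 1, fun a b hab => Nat.succ_injective hab⟩) ?_ ?_
  · rw [Finset.card_map, hcard] at h1
    exact h1
  · intro x hx
    rw [Finset.mem_map] at hx
    obtain ⟨y, hy, rfl⟩ := hx
    have := Finset.mem_range.1 (ht hy)
    rw [Finset.mem_Icc]
    change 1 ≤ y + 1 ∧ y + 1 ≤ N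
    omega
  · intro a d hd ha hb hcc
    rw [Finset.mem_map] at ha hb hcc
    obtain ⟨x, hx, hxa⟩ := ha
    obtain ⟨y, hy, hyb⟩ := hb
    obtain ⟨z, hz, hzc⟩ := hcc
    change x + 1 = a at hxa
    change y + 1 = a + d at hyb
    change z + 1 = a + 2 * d at hzc
    have h2 : x + z = y + y := by omega
    have h3 := hfree (Finset.mem_coe.2 hx) (Finset.mem_coe.2 hy) (Finset.mem_coe.2 hz) h2
    omega

/-- comparison of the two forms of the bound -/
theorem eventually_exponent (c : ℝ) (hc : 0 < c) (ε : ℝ) (hε : 0 < ε) :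
    ∀ᶠ x : ℝ in atTop, x ^ ((1 : ℝ) / 6 - ε) ≤ c * (x / Real.log x) ^ ((1 : ℝ) / 6) := by
  have h1 := (isLittleO_log_rpow_rpow_atTop ((1 : ℝ) / 6) hε).bound hc
  filter_upwards [h1, eventually_gt_atTop (Real.exp 1)] with x hx hx1
  have hx0 : 0 < x := (Real.exp_pos 1).trans hx1
  have hl : 1 < Real.log x := by
    rw [← Real.log_exp 1]
    exact Real.log_lt_log (Real.exp_pos 1) hx1
  have hl0 : 0 < Real.log x := by linarith
  rw [Real.norm_of_nonneg (Real.rpow_nonneg hl0.le _),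
    Real.norm_of_nonneg (Real.rpow_nonneg hx0.le _)] at hx
  rw [Real.div_rpow hx0.le hl0.le, ← mul_div_assoc, le_div_iff₀ (Real.rpow_pos_of_pos hl0 _),
    Real.rpow_sub hx0]
  have h2 : 0 < x ^ ε := Real.rpow_pos_of_pos hx0 _
  calc x ^ ((1 : ℝ) / 6) / x ^ ε * Real.log x ^ ((1 : ℝ) / 6)
      ≤ x ^ ((1 : ℝ) / 6) / x ^ ε * (c * x ^ ε) :=
        mul_le_mul_of_nonneg_left hx (by positivity)
    _ = c * x ^ ((1 : ℝ) / 6) := by
        field_simp

/-- (1) There is an absolute constant `c > 0` such that, for all large `N`,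
`rothNumberNat N ≤ N exp (- c (log N / log log N)^(1/6))`.
(2) For every `ε > 0`, for all large `N`, `rothNumberNat N ≤ N exp (- (log N)^(1/6 - ε))`. -/
theorem result :
    (∃ c : ℝ, 0 < c ∧ ∀ᶠ N : ℕ in atTop, (rothNumberNat N : ℝ) ≤
      N * Real.exp (-c * (Real.log N / Real.log (Real.log N)) ^ ((1 : ℝ) / 6))) ∧
    (∀ ε : ℝ, 0 < ε → ∀ᶠ N : ℕ in atTop, (rothNumberNat N : ℝ) ≤
      N * Real.exp (-(Real.log N) ^ ((1 : ℝ) / 6 - ε))) := by
  obtain ⟨c, hc, N₀, h⟩ := main_bound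
  refine ⟨⟨c, hc, ?_⟩, ?_⟩
  · filter_upwards [eventually_ge_atTop N₀] with N hN
    exact h N hN
  · intro ε hε
    have h1 : Tendsto (fun N : ℕ => Real.log (N : ℝ)) atTop atTop :=
      Real.tendsto_log_atTop.comp tendsto_natCast_atTop_atTop
    have h2 := h1.eventually (eventually_exponent c hc ε hε)
    filter_upwards [eventually_ge_atTop N₀, h2] with N hN h3
    refine (h N hN).trans ?_
    apply mul_le_mul_of_nonneg_left _ (Nat.cast_nonneg N)
    apply Real.exp_le_exp.2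
    rw [neg_mul]
    exact neg_le_neg h3

end Vale.Agent.Results.P057.RothNumber
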