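import Vale.Agent.P057.PartA
import Vale.Agent.P057.PartB
import Vale.Agent.P057.Incr
import Vale.Agent.P057.Itert
import Vale.Agent.P057.Final
import Vale.Agent.P057.Sift
import Vale.Agent.P057.Croot
import Vale.Agent.P057.Cher
import Vale.Agent.P057.Bsize
import Vale.Agent.P057.Bdry
import Vale.Agent.P057.Apc
import Vale.Agent.P057.Aver
import Vale.Agent.P057.Hsm
import Vale.Agent.P057.CSM
import Vale.Agent.P057.UNB
import Vale.Agent.P057.QSEL
import Vale.Agent.P057.Span
import Vale.Agent.P057.Chang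
import Vale.Agent.P057.Favg
import Vale.Agent.P057.Fini
import Vale.Agent.P057.Frep
import Vale.Agent.P057.Gtriv
import Vale.Agent.P057.Regex
import Vale.Agent.P057.Bhalf
import Vale.Agent.P057.Belem

/-!
# P057 (Q2 for k = 3): `r_3(N) ≤ N exp (- c (log N / log log N)^(1/6))`
-/

namespace Vale.Agent.Results.P057.RothSixth

/-- `A` contains no `k`-term arithmetic progression `a, a + d, ..., a + (k - 1) d` with `d > 0` -/
def APFree (k : ℕ) (A : Finset ℕ) : Prop :=
  ¬ ∃ a d : ℕ, 0 < d ∧ ∀ i : ℕ, i < k → a + i * d ∈ A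

open Classical in
/-- `r_k(N)`: the largest cardinality of a subset of `{1, ..., N}` without `k`-term progressions -/
noncomputable def r (k N : ℕ) : ℕ :=
  ((Finset.Icc 1 N).powerset.filter (APFree k)).sup Finset.card

open Vale.Agent.P057 in
theorem final_all : FINAL := by
  have hREG : REGEX := regex_proof bdoub_proof
  have hA : PARTA := parta_proof hREG belem_proof bhalf_proof (aver_proof bdry_proof)
    (apc_proof bdry_proof) hsm_proof CS.csm_proof UN.unb_proof
  have hB : PARTB := PB.partb_proof QS.qsel_proof SIFT.sift_proof (CROOT.croot_proof CHER.cher_proof)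
    frep_proof favg_proof (span_proof chang_proof) (gtriv_proof belem_proof) fini_proof hREG
    belem_proof
  exact final_proof (itert_proof (incr_proof hA hB) bsize_proof)

open Vale.Agent.P057 in
theorem of_final (hF : FINAL) : ∃ c : ℝ, 0 < c ∧ ∃ N₀ : ℕ, ∀ N : ℕ, N₀ ≤ N →
    (r 3 N : ℝ) ≤ N * Real.exp (-c * (Real.log N / Real.log (Real.log N)) ^ ((1 : ℝ) / 6)) := by
  classical
  obtain ⟨c, hc, N₀, h⟩ := hF
  refine ⟨c, hc, N₀, fun N hN => ?_⟩
  have hne : ((Finset.Icc 1 N).powerset.filter (APFree 3)).Nonempty := by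
    refine ⟨∅, ?_⟩
    rw [Finset.mem_filter]
    refine ⟨Finset.empty_mem_powerset _, ?_⟩
    rintro ⟨a, d, _, h0⟩
    exact absurd (h0 0 (by norm_num)) (Finset.notMem_empty _)
  obtain ⟨A, hA, hcard⟩ := Finset.exists_mem_eq_sup _ hne Finset.card
  rw [Finset.mem_filter, Finset.mem_powerset] at hA
  have hr : r 3 N = A.card := hcard
  rw [hr]
  apply h N hN A hA.1
  intro a d hd h1 h2 h3
  apply hA.2
  refine ⟨a, d, hd, ?_⟩
  intro i hi
  interval_cases i
  · simpa using h1
  · simpa using h2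
  · exact h3

/-- There are an absolute constant `c > 0` and an `N₀` such that every `N ≥ N₀` satisfies
`r_3(N) ≤ N exp (- c (log N / log log N)^(1/6))`. -/
theorem result : ∃ c : ℝ, 0 < c ∧ ∃ N₀ : ℕ, ∀ N : ℕ, N₀ ≤ N →
    (r 3 N : ℝ) ≤ N * Real.exp (-c * (Real.log N / Real.log (Real.log N)) ^ ((1 : ℝ) / 6)) :=
  of_final final_all

end Vale.Agent.Results.P057.RothSixth
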